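import Mathlib
import Crest.Agent.Helper82.Shuffle.SymDefs

/-!
# S0222 (Thorp shuffle) — Lemma A of GAP: leaves (L0) and (L1) of the symbol identity

helper47.  Shapes of `Crest.Agent.Helper82.Shuffle.SymDefs` (model of helper13's `GapDefs`).

* `l0 : L0Stmt ι` — the column-swap average `opE` is a symmetric idempotent for the sum inner
  product.
* `l1 : L1Stmt ι` — column factorisation: for `y` injective on `W`,
  `opE (eTop W y) c = (∑ Z ∈ W.powerset, eMix W Z y c) / 2 ^ W.card`.

Own proof (nothing recalled); conditional pre-build for S0222, not used by any landed statement.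
-/

set_option autoImplicit false

namespace Crest.Agent.Helper47.Shuffle

open Finset Crest.Agent.Helper13.Gap Crest.Agent.Helper82.Shuffle

variable {ι : Type*} [Fintype ι] [DecidableEq ι]

/-! ### (L0) `opE` is a self-adjoint idempotent -/

omit [Fintype ι] [DecidableEq ι] in
theorem swapE_mul_swapE (s t : ι → Bool) :
    swapE s * swapE t = swapE (fun i => xor (s i) (t i)) := by
  apply Equiv.ext
  rintro ⟨i, b⟩
  show (i, xor (xor b (t i)) (s i)) = (i, xor b (xor (s i) (t i)))
  cases b <;> cases s i <;> cases t i <;> rfl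

omit [Fintype ι] [DecidableEq ι] in
theorem swapE_inv (s : ι → Bool) : (swapE s)⁻¹ = swapE s := by
  rw [inv_eq_iff_mul_eq_one, swapE_mul_swapE]
  ext p <;> simp

theorem dot_opE (f g : Equiv.Perm (ι × Bool) → ℝ) : dot (opE f) g = dot f (opE g) := by
  unfold dot opE
  simp only [div_mul_eq_mul_div, mul_div_assoc', Finset.sum_mul, Finset.mul_sum]
  rw [← Finset.sum_div, ← Finset.sum_div]
  congr 1
  rw [Finset.sum_comm]
  conv_rhs => rw [Finset.sum_comm]
  refine Finset.sum_congr rfl fun s _ => ?_
  refine Fintype.sum_equiv (Equiv.mulRight (swapE s)) _ _ fun c => ?_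
  simp only [Equiv.coe_mulRight]
  rw [mul_assoc, swapE_mul_swapE]
  have : (fun i => xor (s i) (s i)) = fun _ => false := by funext i; simp
  rw [this]
  have h1 : swapE (fun _ : ι => false) = 1 := by ext p <;> simp
  rw [h1, mul_one]

theorem opE_opE (f : Equiv.Perm (ι × Bool) → ℝ) : opE (opE f) = opE f := by
  funext c
  unfold opE
  have key : ∀ s : ι → Bool, ∑ t : ι → Bool, f (c * swapE s * swapE t) = ∑ t : ι → Bool, f (c * swapE t) := by
    intro s
    let e : (ι → Bool) ≃ (ι → Bool) :=
      { toFun := fun t i => xor (s i) (t i)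
        invFun := fun t i => xor (s i) (t i)
        left_inv := by intro t; funext i; simp
        right_inv := by intro t; funext i; simp }
    refine Fintype.sum_equiv e _ _ fun t => ?_
    rw [mul_assoc, swapE_mul_swapE]
    rfl
  simp only [key]
  rw [Finset.sum_const, Finset.card_univ]
  simp only [Fintype.card_pi, Fintype.card_bool, Finset.prod_const, Finset.card_univ, nsmul_eq_mul]
  have h2 : ((2 : ℝ) ^ Fintype.card ι) ≠ 0 := by positivity
  push_cast
  field_simp

/-! ### (L1) column factorisation: `opE` of a top-row indicator -/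

/-- Sum over all switch patterns of a product of functions of the switches at the (distinct)
columns `y w`, `w ∈ W`. -/
theorem sum_prod_comp_injOn (W : Finset (ι × Bool)) (y : ι × Bool → ι) (hy : Set.InjOn y ↑W)
    (h : ι × Bool → Bool → ℝ) :
    ∑ s : ι → Bool, ∏ w ∈ W, h w (s (y w)) =
      2 ^ (Fintype.card ι - W.card) * ∏ w ∈ W, (h w true + h w false) := by
  classical
  have h1 : ∀ s : ι → Bool, ∏ w ∈ W, h w (s (y w)) =
      ∏ i : ι, ∏ w ∈ W.filter (fun w => y w = i), h w (s i) := by
    intro s
    rw [← Finset.prod_fiberwise W y (fun w => h w (s (y w)))]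
    refine Finset.prod_congr rfl fun i _ => Finset.prod_congr rfl fun w hw => ?_
    rw [(Finset.mem_filter.1 hw).2]
  simp only [h1]
  have h2 := (Finset.prod_univ_sum (fun _ : ι => (Finset.univ : Finset Bool))
    (fun i b => ∏ w ∈ W.filter (fun w => y w = i), h w b)).symm
  rw [Fintype.piFinset_univ] at h2
  rw [h2]
  simp only [Fintype.sum_bool]
  rw [← Finset.prod_filter_mul_prod_filter_not univ (fun i => i ∈ W.image y)]
  have h3 : ∏ i ∈ univ.filter (fun i => i ∈ W.image y),
      ((∏ w ∈ W.filter (fun w => y w = i), h w true) + ∏ w ∈ W.filter (fun w => y w = i), h w false)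
      = ∏ w ∈ W, (h w true + h w false) := by
    have : univ.filter (fun i => i ∈ W.image y) = W.image y := by
      ext i; simp
    rw [this, Finset.prod_image hy]
    refine Finset.prod_congr rfl fun w0 hw0 => ?_
    have hf : W.filter (fun w => y w = y w0) = {w0} := by
      ext w
      simp only [Finset.mem_filter, Finset.mem_singleton]
      constructor
      · rintro ⟨hw, he⟩
        exact hy hw hw0 he
      · rintro rfl
        exact ⟨hw0, rfl⟩
    rw [hf, Finset.prod_singleton, Finset.prod_singleton]
  have h4 : ∏ i ∈ univ.filter (fun i => ¬ i ∈ W.image y),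
      ((∏ w ∈ W.filter (fun w => y w = i), h w true) + ∏ w ∈ W.filter (fun w => y w = i), h w false)
      = 2 ^ (Fintype.card ι - W.card) := by
    have hc : (univ.filter (fun i => ¬ i ∈ W.image y)).card = Fintype.card ι - W.card := by
      rw [Finset.filter_not, Finset.card_sdiff_of_subset (Finset.filter_subset _ _)]
      have : univ.filter (fun i => i ∈ W.image y) = W.image y := by
        ext i; simp
      rw [this, Finset.card_image_of_injOn hy, Finset.card_univ]
    rw [← hc, ← Finset.prod_const]
    refine Finset.prod_congr rfl fun i hi => ?_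
    have hf : W.filter (fun w => y w = i) = ∅ := by
      ext w
      simp only [Finset.mem_filter, Finset.notMem_empty, iff_false, not_and]
      intro hw he
      exact (Finset.mem_filter.1 hi).2 (Finset.mem_image.2 ⟨w, hw, he⟩)
    rw [hf, Finset.prod_empty, Finset.prod_empty]
    norm_num
  rw [h3, h4, mul_comm]

theorem opE_eTop (W : Finset (ι × Bool)) (y : ι × Bool → ι) (hy : Set.InjOn y ↑W)
    (c : Equiv.Perm (ι × Bool)) :
    opE (eTop W y) c = (∑ Z ∈ W.powerset, eMix W Z y c) / 2 ^ W.card := by
  classical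
  unfold opE
  have h1 : ∀ s : ι → Bool, eTop W y (c * swapE s) =
      ∏ w ∈ W, (if c (y w, s (y w)) = w then (1 : ℝ) else 0) := by
    intro s
    unfold eTop
    rw [Finset.prod_boole]
    simp [Equiv.Perm.mul_apply]
  simp only [h1]
  rw [sum_prod_comp_injOn W y hy (fun w b => if c (y w, b) = w then (1 : ℝ) else 0)]
  rw [Finset.prod_add]
  have h2 : ∀ Z ∈ W.powerset, (∏ w ∈ Z, (if c (y w, true) = w then (1 : ℝ) else 0)) *
      ∏ w ∈ W \ Z, (if c (y w, false) = w then (1 : ℝ) else 0) = eMix W Z y c := by
    intro Z hZ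
    have hZW : Z ⊆ W := Finset.mem_powerset.1 hZ
    rw [Finset.prod_boole, Finset.prod_boole, ite_zero_mul_ite_zero, mul_one]
    unfold eMix
    have hiff : ((∀ i ∈ Z, c (y i, true) = i) ∧ ∀ i ∈ W \ Z, c (y i, false) = i) ↔
        ∀ w ∈ W, c (y w, decide (w ∈ Z)) = w := by
      constructor
      · rintro ⟨hA, hB⟩ w hw
        by_cases hz : w ∈ Z
        · simpa [hz] using hA w hz
        · simpa [hz] using hB w (Finset.mem_sdiff.2 ⟨hw, hz⟩)
      · intro hC
        refine ⟨fun w hz => ?_, fun w hw => ?_⟩
        · simpa [hz] using hC w (hZW hz)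
        · simpa [(Finset.mem_sdiff.1 hw).2] using hC w (Finset.mem_sdiff.1 hw).1
    by_cases hC : ∀ w ∈ W, c (y w, decide (w ∈ Z)) = w
    · rw [if_pos hC, if_pos (hiff.2 hC)]
    · rw [if_neg hC, if_neg (fun h => hC (hiff.1 h))]
  rw [Finset.sum_congr rfl h2]
  have hk : W.card ≤ Fintype.card ι := by
    have := Finset.card_le_card_of_injOn y (fun w _ => Finset.mem_univ (y w)) hy
    simpa using this
  have h5 : (2 : ℝ) ^ Fintype.card ι = 2 ^ (Fintype.card ι - W.card) * 2 ^ W.card := by
    rw [← pow_add, Nat.sub_add_cancel hk]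
  rw [h5]
  have h6 : ((2 : ℝ) ^ (Fintype.card ι - W.card)) ≠ 0 := by positivity
  have h7 : ((2 : ℝ) ^ W.card) ≠ 0 := by positivity
  field_simp

/-- (L0) of helper82's `SymDefs`. -/
theorem l0 : L0Stmt ι := ⟨dot_opE, opE_opE⟩

/-- (L1) of helper82's `SymDefs`. -/
theorem l1 : L1Stmt ι := fun W y hy c => opE_eTop W y hy c

end Crest.Agent.Helper47.Shuffle
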